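import Vale.Agent.Lib.P248.Defs

/-!
# P248: boxes
-/

namespace Vale.Agent.Lib.P248

/-- The boxes: the smallest family of subsets of the spaces `ℝ^ι` that contains the segments
`[a, b]`, `a < b`, of `ℝ^1` and is closed under Cartesian products (in positive dimensions). -/
inductive Box : ∀ {ι : Type} [Fintype ι] [DecidableEq ι], Set (ι → ℝ) → Prop
  | seg (a b : ℝ) (hab : a < b) : Box (seg a b)
  | prod {ι κ : Type} [Fintype ι] [DecidableEq ι] [Nonempty ι] [Fintype κ] [DecidableEq κ]
      [Nonempty κ] (A : Set (ι → ℝ)) (B : Set (κ → ℝ)) (hA : Box A) (hB : Box B) :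
      Box (prodSet A B)

end Vale.Agent.Lib.P248
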