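import Vale.Agent.Lib.P248.Defs
import Vale.Agent.Lib.P254.ClassDefs

/-!
# P248: a family of polytopes built from segments by products, cones and affine maps
-/

namespace Vale.Agent.Lib.P248

open Matrix

/-- The smallest family of subsets of the spaces `ℝ^ι` (`ι` a finite index type) such that:
* `seg`: every segment `[a, b]`, `a < b`, in `ℝ^1` is in the family;
* `prod`: the Cartesian product of two members (in positive dimensions) is a member;
* `cone`: the closed cone `{(t p, t) : p ∈ A, 0 ≤ t ≤ 1}` over a member `A` is a member;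
* `aff`: the image of a member under an invertible affine map is a member. -/
inductive Pyr : ∀ {ι : Type} [Fintype ι] [DecidableEq ι], Set (ι → ℝ) → Prop
  | seg (a b : ℝ) (hab : a < b) : Pyr (seg a b)
  | prod {ι κ : Type} [Fintype ι] [DecidableEq ι] [Nonempty ι] [Fintype κ] [DecidableEq κ]
      [Nonempty κ] (A : Set (ι → ℝ)) (B : Set (κ → ℝ)) (hA : Pyr A) (hB : Pyr B) :
      Pyr (prodSet A B)
  | cone {ι : Type} [Fintype ι] [DecidableEq ι] (A : Set (ι → ℝ)) (hA : Pyr A) :
      Pyr (Vale.Agent.Lib.P254.ccone A)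
  | aff {ι : Type} [Fintype ι] [DecidableEq ι] (F : Matrix ι ι ℝ) (c : ι → ℝ)
      (hF : F.det ≠ 0) (A : Set (ι → ℝ)) (hA : Pyr A) :
      Pyr ((fun x : ι → ℝ => c + F *ᵥ x) '' A)

end Vale.Agent.Lib.P248
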