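import Vale.Agent.Lib.P248.Product
import Vale.Agent.Lib.P254.Class
import Vale.Agent.Lib.P248.FamilyDefs

/-!
# P248: the volume product of cones

For the closed cone `ccone B = {(t p, t) : p ∈ B, 0 ≤ t ≤ 1}` over `B ⊆ ℝ^n` and a point
with coordinates s p₀ and s, where `p₀ ∈ B`, `0 < s < 1`, the polar body of the cone is, up to a
shear, the set of pairs w, σ with `-1/s ≤ σ` and `w` in the polar body of `B` at `p₀` scaled by
`1 - (1 - s) σ`.
-/

namespace Vale.Agent.Lib.P248

open MeasureTheory Set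
open Vale.Agent.Lib.P254 (ccone split split_mp split_apply)
open scoped Pointwise

set_option linter.deprecated false
set_option linter.unusedSectionVars false
set_option linter.unusedVariables false

noncomputable section

section conepolar

variable {ι : Type*} [Fintype ι]

/-- the polar of the cone in sheared split coordinates -/
def polS (B : Set (ι → ℝ)) (p₀ : ι → ℝ) (s : ℝ) : Set ((ι → ℝ) × ℝ) :=
  {q | -s * q.2 ≤ 1 ∧ ∀ p ∈ B, ∑ i, q.1 i * (p i - p₀ i) + (1 - s) * q.2 ≤ 1}

/-- the shear -/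
def shear (p₀ : ι → ℝ) (q : (ι → ℝ) × ℝ) : (ι → ℝ) × ℝ := (q.1, q.2 + ∑ i, q.1 i * p₀ i)

lemma polar_ccone_eq {B : Set (ι → ℝ)} {p₀ : ι → ℝ} (hp₀ : p₀ ∈ B) (s : ℝ) :
    polarAt (ccone B) (Sum.elim (s • p₀) (fun _ => s))
      = split ⁻¹' (shear p₀ ⁻¹' polS B p₀ s) := by
  ext y
  simp only [polarAt, mem_setOf_eq, mem_preimage, split_apply, shear, polS]
  have key : ∀ (p : ι → ℝ) (t : ℝ),
      ∑ j, y j * ((Sum.elim (t • p) (fun _ => t) : ι ⊕ Unit → ℝ) j
        - (Sum.elim (s • p₀) (fun _ => s) : ι ⊕ Unit → ℝ) j)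
      = t * (∑ i, y (Sum.inl i) * (p i - p₀ i)
          + (1 - s) * (y (Sum.inr ()) + ∑ i, y (Sum.inl i) * p₀ i))
        + (1 - t) * (-s * (y (Sum.inr ()) + ∑ i, y (Sum.inl i) * p₀ i)) := by
    intro p t
    rw [Fintype.sum_sum_type]
    simp only [Sum.elim_inl, Sum.elim_inr, Pi.smul_apply, smul_eq_mul, Finset.univ_unique,
      Finset.sum_singleton]
    have e1 : ∑ i, y (Sum.inl i) * (t * p i - s * p₀ i)
        = t * ∑ i, y (Sum.inl i) * p i - s * ∑ i, y (Sum.inl i) * p₀ i := by
      rw [Finset.mul_sum, Finset.mul_sum, ← Finset.sum_sub_distrib]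
      exact Finset.sum_congr rfl fun i _ => by ring
    have e2 : ∑ i, y (Sum.inl i) * (p i - p₀ i)
        = ∑ i, y (Sum.inl i) * p i - ∑ i, y (Sum.inl i) * p₀ i := by
      rw [← Finset.sum_sub_distrib]
      exact Finset.sum_congr rfl fun i _ => by ring
    rw [e1, e2]
    have e3 : y (Sum.inr default) = y (Sum.inr ()) := rfl
    rw [e3]
    ring
  constructor
  · intro h
    refine ⟨?_, fun p hp => ?_⟩
    · have h0 := h _ ⟨p₀, hp₀, 0, le_refl 0, zero_le_one, rfl⟩
      rw [key p₀ 0] at h0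
      simpa using h0
    · have h1 := h _ ⟨p, hp, 1, zero_le_one, le_refl 1, rfl⟩
      rw [key p 1] at h1
      simpa using h1
  · rintro ⟨h0, h1⟩ x ⟨p, hp, t, ht0, ht1, rfl⟩
    rw [key p t]
    have h2 := h1 p hp
    calc t * (∑ i, y (Sum.inl i) * (p i - p₀ i)
          + (1 - s) * (y (Sum.inr ()) + ∑ i, y (Sum.inl i) * p₀ i))
        + (1 - t) * (-s * (y (Sum.inr ()) + ∑ i, y (Sum.inl i) * p₀ i))
        ≤ t * 1 + (1 - t) * 1 :=
          add_le_add (mul_le_mul_of_nonneg_left h2 ht0)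
            (mul_le_mul_of_nonneg_left h0 (by linarith))
      _ = 1 := by ring

lemma shear_mp (p₀ : ι → ℝ) :
    MeasurePreserving (shear p₀) (volume : Measure ((ι → ℝ) × ℝ)) volume := by
  have hm : Measurable (Function.uncurry fun (w : ι → ℝ) (τ : ℝ) => τ + ∑ i, w i * p₀ i) := by
    have h1 : Measurable fun q : (ι → ℝ) × ℝ => q.2 + ∑ i, q.1 i * p₀ i := by
      refine measurable_snd.add (Finset.measurable_sum _ fun i _ => ?_)
      exact ((measurable_pi_apply i).comp measurable_fst).mul measurable_const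
    exact h1
  have h := MeasurePreserving.skew_product (μa := (volume : Measure (ι → ℝ)))
    (μb := (volume : Measure (ι → ℝ))) (μc := (volume : Measure ℝ)) (μd := (volume : Measure ℝ))
    (f := id) (g := fun (w : ι → ℝ) (τ : ℝ) => τ + ∑ i, w i * p₀ i)
    (MeasurePreserving.id _) hm
    (Filter.Eventually.of_forall fun w => (measurePreserving_add_right volume _).map_eq)
  exact h

lemma isClosed_polS (B : Set (ι → ℝ)) (p₀ : ι → ℝ) (s : ℝ) : IsClosed (polS B p₀ s) := by
  have e : polS B p₀ s = {q : (ι → ℝ) × ℝ | -s * q.2 ≤ 1} ∩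
      ⋂ p ∈ B, {q : (ι → ℝ) × ℝ | ∑ i, q.1 i * (p i - p₀ i) + (1 - s) * q.2 ≤ 1} := by
    ext q
    simp [polS]
  rw [e]
  refine IsClosed.inter (isClosed_le (by fun_prop) continuous_const)
    (isClosed_biInter fun p _ => isClosed_le ?_ continuous_const)
  refine Continuous.add (continuous_finsetSum _ fun i _ => ?_) (by fun_prop)
  exact ((continuous_apply i).comp continuous_fst).mul continuous_const

lemma vol_polar_ccone {B : Set (ι → ℝ)} {p₀ : ι → ℝ} (hp₀ : p₀ ∈ B) (s : ℝ) :
    volume (polarAt (ccone B) (Sum.elim (s • p₀) (fun _ => s))) = volume (polS B p₀ s) := by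
  rw [polar_ccone_eq hp₀ s]
  have hcl := (isClosed_polS B p₀ s).measurableSet
  rw [(split_mp (ι := ι)).measure_preimage ((shear_mp p₀).measurable hcl).nullMeasurableSet,
    (shear_mp p₀).measure_preimage hcl.nullMeasurableSet]

end conepolar

section slices

variable {ι : Type*} [Fintype ι]

lemma polS_slice_mid {B : Set (ι → ℝ)} {p₀ : ι → ℝ} {s : ℝ} (hs0 : 0 < s) (hs1 : s < 1) {σ : ℝ}
    (h1 : -(1 / s) < σ) (h2 : σ < 1 / (1 - s)) :
    (fun w : ι → ℝ => (w, σ)) ⁻¹' polS B p₀ s = (1 - (1 - s) * σ) • polarAt B p₀ := by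
  have hs1' : 0 < 1 - s := by linarith
  have hl : 0 < 1 - (1 - s) * σ := by
    have h3 : σ * (1 - s) < 1 := (lt_div_iff₀ hs1').1 h2
    linarith
  have hσ : -1 < s * σ := by
    have h3 := mul_lt_mul_of_pos_left h1 hs0
    have h4 : s * -(1 / s) = -1 := by field_simp
    linarith
  ext w
  rw [Set.mem_smul_set_iff_inv_smul_mem₀ hl.ne']
  simp only [mem_preimage, polS, mem_setOf_eq, polarAt, Pi.smul_apply, smul_eq_mul]
  have e : ∀ p : ι → ℝ, ∑ i, (1 - (1 - s) * σ)⁻¹ * w i * (p i - p₀ i)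
      = (1 - (1 - s) * σ)⁻¹ * ∑ i, w i * (p i - p₀ i) := by
    intro p
    rw [Finset.mul_sum]
    exact Finset.sum_congr rfl fun i _ => by ring
  constructor
  · rintro ⟨-, h⟩ p hp
    rw [e, inv_mul_le_iff₀ hl]
    have := h p hp
    linarith
  · intro h
    refine ⟨by linarith, fun p hp => ?_⟩
    have := h p hp
    rw [e, inv_mul_le_iff₀ hl] at this
    linarith

lemma polS_slice_low {B : Set (ι → ℝ)} {p₀ : ι → ℝ} {s : ℝ} (hs0 : 0 < s) {σ : ℝ}
    (h1 : σ < -(1 / s)) :
    (fun w : ι → ℝ => (w, σ)) ⁻¹' polS B p₀ s = ∅ := by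
  ext w
  simp only [mem_preimage, polS, mem_setOf_eq, mem_empty_iff_false, iff_false, not_and]
  intro h
  exfalso
  have h3 := mul_lt_mul_of_pos_left h1 hs0
  have h4 : s * -(1 / s) = -1 := by field_simp
  linarith

lemma polS_slice_high {B : Set (ι → ℝ)} {p₀ : ι → ℝ} (hp₀ : p₀ ∈ B) {s : ℝ} (hs1 : s < 1)
    {σ : ℝ} (h2 : 1 / (1 - s) < σ) :
    (fun w : ι → ℝ => (w, σ)) ⁻¹' polS B p₀ s = ∅ := by
  ext w
  simp only [mem_preimage, polS, mem_setOf_eq, mem_empty_iff_false, iff_false, not_and]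
  intro _ h
  have h5 := h p₀ hp₀
  simp only [sub_self, mul_zero, Finset.sum_const_zero, zero_add] at h5
  have hs1' : 0 < 1 - s := by linarith
  have h3 : 1 < σ * (1 - s) := (div_lt_iff₀ hs1').1 h2
  linarith

lemma cone_integral_val {s : ℝ} (hs0 : 0 < s) (hs1 : s < 1) (n : ℕ) :
    ∫ σ in Ioo (-(1 / s)) (1 / (1 - s)), (1 - (1 - s) * σ) ^ n
      = 1 / (((n:ℝ) + 1) * (1 - s) * s ^ (n + 1)) := by
  have hs1' : 0 < 1 - s := by linarith
  have hab : -(1 / s) ≤ 1 / (1 - s) := by
    have h1 : -(1 / s) < 0 := by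
      have : 0 < 1 / s := by positivity
      linarith
    have h2 : 0 < 1 / (1 - s) := by positivity
    linarith
  rw [← integral_Ioc_eq_integral_Ioo, ← intervalIntegral.integral_of_le hab]
  have h := intervalIntegral.integral_comp_sub_mul (a := -(1 / s)) (b := 1 / (1 - s))
    (fun x : ℝ => x ^ n) hs1'.ne' 1
  rw [h, integral_pow]
  have e1 : 1 - (1 - s) * (1 / (1 - s)) = 0 := by field_simp; ring
  have e2 : 1 - (1 - s) * -(1 / s) = 1 / s := by field_simp; ring
  rw [e1, e2]
  simp only [smul_eq_mul]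
  rw [zero_pow (by omega), sub_zero, one_div, inv_pow]
  field_simp

lemma volume_polS {B : Set (ι → ℝ)} {p₀ : ι → ℝ} (hp₀ : p₀ ∈ B) {s : ℝ} (hs0 : 0 < s)
    (hs1 : s < 1) :
    (volume (polS B p₀ s)).toReal
      = vol (polarAt B p₀)
        / (((Fintype.card ι : ℝ) + 1) * (1 - s) * s ^ (Fintype.card ι + 1)) := by
  have hs1' : 0 < 1 - s := by linarith
  rw [Measure.volume_eq_prod, Measure.prod_apply_symm (isClosed_polS B p₀ s).measurableSet]
  have hae : (fun σ => volume ((fun w : ι → ℝ => (w, σ)) ⁻¹' polS B p₀ s))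
      =ᵐ[volume] (Ioo (-(1 / s)) (1 / (1 - s))).indicator
        (fun σ => ENNReal.ofReal ((1 - (1 - s) * σ) ^ Fintype.card ι)
          * volume (polarAt B p₀)) := by
    have hnull : volume ({-(1 / s), 1 / (1 - s)} : Set ℝ) = 0 :=
      (Set.toFinite _).measure_zero _
    rw [Filter.EventuallyEq, ae_iff]
    refine measure_mono_null ?_ hnull
    intro σ hσ
    simp only [mem_setOf_eq] at hσ
    by_contra hne
    simp only [mem_insert_iff, mem_singleton_iff, not_or] at hne
    apply hσ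
    rcases lt_or_gt_of_ne hne.1 with h1 | h1
    · rw [polS_slice_low hs0 h1, indicator_of_notMem (fun h => absurd h.1 (not_lt.2 h1.le))]
      simp
    · rcases lt_or_gt_of_ne hne.2 with h2 | h2
      · have hl : 0 ≤ 1 - (1 - s) * σ := by
          have h3 : σ * (1 - s) < 1 := (lt_div_iff₀ hs1').1 h2
          linarith
        rw [polS_slice_mid hs0 hs1 h1 h2, indicator_of_mem (show σ ∈ Ioo (-(1 / s)) (1 / (1 - s)) from ⟨h1, h2⟩), Measure.addHaar_smul,
          Module.finrank_fintype_fun_eq_card, abs_of_nonneg (pow_nonneg hl _)]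
      · rw [polS_slice_high hp₀ hs1 h2,
          indicator_of_notMem (fun h => absurd h.2 (not_lt.2 h2.le))]
        simp
  rw [lintegral_congr_ae hae, lintegral_indicator measurableSet_Ioo,
    lintegral_mul_const _ (by fun_prop)]
  have hnn : ∀ σ ∈ Ioo (-(1 / s)) (1 / (1 - s)), 0 ≤ (1 - (1 - s) * σ) ^ Fintype.card ι := by
    intro σ hσ
    have h3 : σ * (1 - s) < 1 := (lt_div_iff₀ hs1').1 hσ.2
    exact pow_nonneg (by linarith) _
  have hint : ∫⁻ σ in Ioo (-(1 / s)) (1 / (1 - s)),
      ENNReal.ofReal ((1 - (1 - s) * σ) ^ Fintype.card ι)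
      = ENNReal.ofReal (∫ σ in Ioo (-(1 / s)) (1 / (1 - s)),
          (1 - (1 - s) * σ) ^ Fintype.card ι) := by
    rw [ofReal_integral_eq_lintegral_ofReal]
    · have hc : Continuous fun σ : ℝ => (1 - (1 - s) * σ) ^ Fintype.card ι := by fun_prop
      exact (hc.integrableOn_Icc).mono_set Ioo_subset_Icc_self
    · exact ae_restrict_of_forall_mem measurableSet_Ioo hnn
  rw [hint, ENNReal.toReal_mul, ENNReal.toReal_ofReal
    (setIntegral_nonneg measurableSet_Ioo hnn), cone_integral_val hs0 hs1]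
  unfold vol
  ring

/-- the volume of the polar body of a cone -/
theorem vol_polarAt_ccone {B : Set (ι → ℝ)} {p₀ : ι → ℝ} (hp₀ : p₀ ∈ B) {s : ℝ} (hs0 : 0 < s)
    (hs1 : s < 1) :
    vol (polarAt (ccone B) (Sum.elim (s • p₀) (fun _ => s)))
      = vol (polarAt B p₀)
        / (((Fintype.card ι : ℝ) + 1) * (1 - s) * s ^ (Fintype.card ι + 1)) := by
  rw [← volume_polS hp₀ hs0 hs1]
  unfold vol
  rw [vol_polar_ccone hp₀ s]

end slices

section conebound

variable {ι : Type*} [Fintype ι]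

lemma vol_ccone {B : Set (ι → ℝ)} (hB : MeasurableSet B) (hbd : Bornology.IsBounded B)
    (hne : B.Nonempty) : vol (ccone B) = vol B / ((Fintype.card ι : ℝ) + 1) := by
  have h := Vale.Agent.Lib.P254.cone_vol hB hbd
  have hae := Vale.Agent.Lib.P254.ccone_ae hne
  unfold vol
  rw [measure_congr hae]
  exact h

/-- the volume product of a cone at the point with coordinates s p₀ and s -/
theorem santalo_ccone {B : Set (ι → ℝ)} (hB : MeasurableSet B) (hbd : Bornology.IsBounded B)
    {p₀ : ι → ℝ} (hp₀ : p₀ ∈ B) {s : ℝ} (hs0 : 0 < s) (hs1 : s < 1) :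
    santalo (ccone B) (Sum.elim (s • p₀) (fun _ => s))
      = santalo B p₀
        / (((Fintype.card ι : ℝ) + 1) ^ 2 * ((1 - s) * s ^ (Fintype.card ι + 1))) := by
  unfold santalo
  rw [vol_polarAt_ccone hp₀ hs0 hs1, vol_ccone hB hbd ⟨p₀, hp₀⟩]
  have hs1' : 0 < 1 - s := by linarith
  field_simp

lemma bern (n : ℕ) {u : ℝ} (hu : 0 ≤ u) :
    ((n:ℝ) + 2) * u ^ (n + 1) ≤ ((n:ℝ) + 1) * u ^ (n + 2) + 1 := by
  induction n with
  | zero =>
    simp only [Nat.cast_zero, zero_add, pow_one]
    nlinarith [sq_nonneg (u - 1)]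
  | succ n ih =>
    have h1 : 0 ≤ (u - 1) * (u ^ (n + 2) - 1) := by
      rcases le_total u 1 with h | h
      · have : u ^ (n + 2) ≤ 1 := pow_le_one₀ hu h
        exact mul_nonneg_of_nonpos_of_nonpos (by linarith) (by linarith)
      · have : 1 ≤ u ^ (n + 2) := one_le_pow₀ h
        exact mul_nonneg (by linarith) (by linarith)
    have h2 : 0 ≤ u * (((n:ℝ) + 1) * u ^ (n + 2) + 1 - ((n:ℝ) + 2) * u ^ (n + 1)) :=
      mul_nonneg hu (by linarith)
    push_cast
    have e1 : u ^ (n + 1 + 1) = u ^ (n + 2) := rfl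
    have e2 : u ^ (n + 1 + 2) = u * u ^ (n + 2) := by rw [← pow_succ']
    have e3 : u ^ (n + 2) = u * u ^ (n + 1) := by rw [← pow_succ']
    rw [e1, e2]
    nlinarith

/-- the maximum of 1 - s times the power n + 1 of s -/
lemma s_bound (n : ℕ) {s : ℝ} (hs0 : 0 < s) (hs1 : s < 1) :
    (1 - s) * s ^ (n + 1) ≤ ((n:ℝ) + 1) ^ (n + 1) / ((n:ℝ) + 2) ^ (n + 2) := by
  have hn1 : (0:ℝ) < (n:ℝ) + 1 := by positivity
  have hn2 : (0:ℝ) < (n:ℝ) + 2 := by positivity
  have hu : 0 ≤ ((n:ℝ) + 2) * s / ((n:ℝ) + 1) := by positivity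
  have h := bern n hu
  have e : ((n:ℝ) + 2) * (((n:ℝ) + 2) * s / ((n:ℝ) + 1)) ^ (n + 1)
      - ((n:ℝ) + 1) * (((n:ℝ) + 2) * s / ((n:ℝ) + 1)) ^ (n + 2)
      = ((n:ℝ) + 2) ^ (n + 2) / ((n:ℝ) + 1) ^ (n + 1) * ((1 - s) * s ^ (n + 1)) := by
    rw [pow_succ (((n:ℝ) + 2) * s / ((n:ℝ) + 1)) (n + 1), div_pow, mul_pow]
    field_simp
    ring
  have h3 : ((n:ℝ) + 2) ^ (n + 2) / ((n:ℝ) + 1) ^ (n + 1) * ((1 - s) * s ^ (n + 1)) ≤ 1 := by
    rw [← e]
    linarith
  rw [le_div_iff₀ (by positivity)]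
  have h4 : ((n:ℝ) + 2) ^ (n + 2) / ((n:ℝ) + 1) ^ (n + 1) * ((1 - s) * s ^ (n + 1))
      = (1 - s) * s ^ (n + 1) * ((n:ℝ) + 2) ^ (n + 2) / ((n:ℝ) + 1) ^ (n + 1) := by ring
  rw [h4, div_le_one (by positivity)] at h3
  exact h3

lemma simplexVal_succ (n : ℕ) :
    simplexVal (n + 1)
      = simplexVal n * (((n:ℝ) + 2) ^ (n + 2) / ((n:ℝ) + 1) ^ (n + 3)) := by
  unfold simplexVal
  rw [Nat.factorial_succ]
  push_cast
  have h1 : ((n.factorial : ℕ) : ℝ) ≠ 0 := by positivity
  have hn1 : ((n:ℝ) + 1) ≠ 0 := by positivity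
  have e : ((n:ℝ) + 1 + 1) = (n:ℝ) + 2 := by ring
  rw [e]
  field_simp
  ring

lemma santalo_nonneg {κ : Type*} [Fintype κ] (K : Set (κ → ℝ)) (z : κ → ℝ) : 0 ≤ santalo K z := by
  unfold santalo vol
  positivity

/-- interior points of a cone -/
lemma interior_ccone {B : Set (ι → ℝ)} {c : ι ⊕ Unit → ℝ} (hc : c ∈ interior (ccone B)) :
    0 < c (Sum.inr ()) ∧ c (Sum.inr ()) < 1 ∧
      (c (Sum.inr ()))⁻¹ • (fun i => c (Sum.inl i)) ∈ interior B ∧
      c = Sum.elim (c (Sum.inr ()) • ((c (Sum.inr ()))⁻¹ • (fun i => c (Sum.inl i))))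
        (fun _ => c (Sum.inr ())) := by
  classical
  set s := c (Sum.inr ()) with hs
  have h01 : s ∈ Ioo (0:ℝ) 1 := by
    have hcont : Continuous (fun r : ℝ => Function.update c (Sum.inr ()) r) :=
      continuous_const.update _ continuous_id
    have hopen : IsOpen ((fun r : ℝ => Function.update c (Sum.inr ()) r) ⁻¹'
        interior (ccone B)) := isOpen_interior.preimage hcont
    have hsub : (fun r : ℝ => Function.update c (Sum.inr ()) r) ⁻¹' interior (ccone B)
        ⊆ Icc 0 1 := by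
      intro r hr
      obtain ⟨p, hp, t, ht0, ht1, he⟩ := interior_subset hr
      have hrt : r = t := by
        have := congrFun he (Sum.inr ())
        simpa using this
      rw [hrt]
      exact ⟨ht0, ht1⟩
    have hmem : s ∈ (fun r : ℝ => Function.update c (Sum.inr ()) r) ⁻¹'
        interior (ccone B) := by
      show Function.update c (Sum.inr ()) s ∈ interior (ccone B)
      rw [hs, Function.update_eq_self]
      exact hc
    have h := interior_maximal hsub hopen hmem
    rwa [interior_Icc] at h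
  have hself : (Sum.elim (s • (s⁻¹ • (fun i => c (Sum.inl i)))) (fun _ => s) : ι ⊕ Unit → ℝ)
      = c := by
    funext j
    rcases j with i | u
    · simp only [Sum.elim_inl, Pi.smul_apply, smul_eq_mul]
      rw [← mul_assoc, mul_inv_cancel₀ h01.1.ne', one_mul]
    · simp [hs]
  refine ⟨h01.1, h01.2, ?_, hself.symm⟩
  set φ : (ι → ℝ) → (ι ⊕ Unit → ℝ) := fun w => Sum.elim (s • w) (fun _ => s) with hφ
  have hcont : Continuous φ := by
    refine continuous_pi fun j => ?_
    rcases j with i | u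
    · simp only [hφ, Sum.elim_inl, Pi.smul_apply, smul_eq_mul]
      exact continuous_const.mul (continuous_apply i)
    · simp only [hφ, Sum.elim_inr]
      exact continuous_const
  have hopen : IsOpen (φ ⁻¹' interior (ccone B)) := isOpen_interior.preimage hcont
  have hsub : φ ⁻¹' interior (ccone B) ⊆ B := by
    intro w hw
    obtain ⟨p, hp, t, ht0, ht1, he⟩ := interior_subset hw
    have hst : s = t := by
      have := congrFun he (Sum.inr ())
      simpa [hφ] using this
    have hwp : w = p := by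
      funext i
      have h3 := congrFun he (Sum.inl i)
      simp only [hφ, Sum.elim_inl, Pi.smul_apply, smul_eq_mul, ← hst] at h3
      exact mul_left_cancel₀ h01.1.ne' h3
    rw [hwp]
    exact hp
  have hmem : s⁻¹ • (fun i => c (Sum.inl i)) ∈ φ ⁻¹' interior (ccone B) := by
    show φ (s⁻¹ • fun i => c (Sum.inl i)) ∈ interior (ccone B)
    have e : φ (s⁻¹ • fun i => c (Sum.inl i)) = c := hself
    rw [e]
    exact hc
  exact interior_maximal hsub hopen hmem

/-- the simplex bound for the volume product passes to cones; equality passes back to the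
base -/
theorem q2_ccone {B : Set (ι → ℝ)} (hB : MeasurableSet B) (hbd : Bornology.IsBounded B)
    (hq : ∀ z ∈ interior B, simplexVal (Fintype.card ι) ≤ santalo B z)
    {c : ι ⊕ Unit → ℝ} (hc : c ∈ interior (ccone B)) :
    simplexVal (Fintype.card ι + 1) ≤ santalo (ccone B) c ∧
    (santalo (ccone B) c = simplexVal (Fintype.card ι + 1) →
      ∃ z ∈ interior B, santalo B z = simplexVal (Fintype.card ι)) := by
  obtain ⟨hs0, hs1, hp, hself⟩ := interior_ccone hc
  set s := c (Sum.inr ()) with hs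
  set p₀ : ι → ℝ := s⁻¹ • (fun i => c (Sum.inl i)) with hp₀
  set n := Fintype.card ι with hn
  have hval := santalo_ccone hB hbd (interior_subset hp) hs0 hs1
  rw [← hself] at hval
  have hs1' : 0 < 1 - s := by linarith
  have hD : 0 < ((n:ℝ) + 1) ^ 2 * ((1 - s) * s ^ (n + 1)) := by positivity
  have hb := s_bound n hs0 hs1
  have hq0 := hq p₀ hp
  have hsv := simplexVal_succ n
  have hpos := simplexVal_pos n
  set D₀ : ℝ := ((n:ℝ) + 1) ^ (n + 3) / ((n:ℝ) + 2) ^ (n + 2) with hD₀
  have hD₀pos : 0 < D₀ := by positivity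
  have hDle : ((n:ℝ) + 1) ^ 2 * ((1 - s) * s ^ (n + 1)) ≤ D₀ := by
    have e : D₀ = ((n:ℝ) + 1) ^ 2 * (((n:ℝ) + 1) ^ (n + 1) / ((n:ℝ) + 2) ^ (n + 2)) := by
      rw [hD₀]
      ring
    rw [e]
    exact mul_le_mul_of_nonneg_left hb (by positivity)
  have hsv' : simplexVal (n + 1) = simplexVal n / D₀ := by
    rw [hsv, hD₀]
    field_simp
  have h1 : simplexVal n / D₀ ≤ santalo B p₀ / D₀ := div_le_div_of_nonneg_right hq0 hD₀pos.le
  have h2 : santalo B p₀ / D₀ ≤ santalo B p₀ / (((n:ℝ) + 1) ^ 2 * ((1 - s) * s ^ (n + 1))) :=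
    div_le_div_of_nonneg_left (santalo_nonneg B p₀) hD hDle
  refine ⟨by rw [hval, hsv']; exact h1.trans h2, fun heq => ⟨p₀, hp, ?_⟩⟩
  rw [hval, hsv'] at heq
  have h3 : santalo B p₀ / D₀ ≤ simplexVal n / D₀ := by rw [← heq]; exact h2
  have h4 : santalo B p₀ ≤ simplexVal n := (div_le_div_iff_of_pos_right hD₀pos).1 h3
  exact le_antisymm h4 hq0

end conebound

section affine

variable {κ : Type*} [Fintype κ] [DecidableEq κ]

open Vale.Agent.Lib.P254 (affMap)
open Matrix

lemma polarAt_aff (F : Matrix κ κ ℝ) (c : κ → ℝ) (K : Set (κ → ℝ)) (z : κ → ℝ) :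
    polarAt (affMap F c '' K) (affMap F c z)
      = (Matrix.toLin' F.transpose) ⁻¹' polarAt K z := by
  ext y
  simp only [polarAt, mem_setOf_eq, mem_preimage]
  have key : ∀ x : κ → ℝ, ∑ i, y i * (affMap F c x i - affMap F c z i)
      = ∑ j, (Matrix.toLin' F.transpose y) j * (x j - z j) := by
    intro x
    simp only [Vale.Agent.Lib.P254.affMap_apply, Matrix.toLin'_apply, Matrix.mulVec,
      dotProduct, Matrix.transpose_apply]
    have e : ∀ i, y i * (c i + ∑ j, F i j * x j - (c i + ∑ j, F i j * z j))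
        = ∑ j, y i * F i j * (x j - z j) := by
      intro i
      rw [add_sub_add_left_eq_sub, ← Finset.sum_sub_distrib, Finset.mul_sum]
      exact Finset.sum_congr rfl fun j _ => by ring
    simp_rw [e]
    rw [Finset.sum_comm]
    refine Finset.sum_congr rfl fun j _ => ?_
    rw [Finset.sum_mul]
    exact Finset.sum_congr rfl fun i _ => by ring
  constructor
  · intro h x hx
    rw [← key]
    exact h _ ⟨x, hx, rfl⟩
  · rintro h _ ⟨x, hx, rfl⟩
    rw [key]
    exact h x hx

/-- affine invariance of the volume product functional -/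
lemma santalo_aff {F : Matrix κ κ ℝ} (hF : F.det ≠ 0) (c : κ → ℝ) {K : Set (κ → ℝ)}
    (hK : MeasurableSet K) (z : κ → ℝ) :
    santalo (affMap F c '' K) (affMap F c z) = santalo K z := by
  unfold santalo
  rw [polarAt_aff]
  have h1 : vol (affMap F c '' K) = |F.det| * vol K := Vale.Agent.Lib.P254.aff_vol hF c hK
  have hdet : LinearMap.det (Matrix.toLin' F.transpose) = F.det := by
    rw [LinearMap.det_toLin', Matrix.det_transpose]
  have h2 : vol ((Matrix.toLin' F.transpose) ⁻¹' polarAt K z)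
      = |F.det|⁻¹ * vol (polarAt K z) := by
    unfold vol
    rw [Measure.addHaar_preimage_linearMap _ (by rw [hdet]; exact hF), hdet,
      ENNReal.toReal_mul, ENNReal.toReal_ofReal (abs_nonneg _), abs_inv]
  rw [h1, h2]
  have h3 : |F.det| ≠ 0 := abs_ne_zero.2 hF
  field_simp

lemma interior_aff {F : Matrix κ κ ℝ} (hF : F.det ≠ 0) (c : κ → ℝ) {K : Set (κ → ℝ)}
    {z : κ → ℝ} (hz : z ∈ interior (affMap F c '' K)) :
    ∃ z' ∈ interior K, z = affMap F c z' := by
  have hcont : Continuous (affMap F c) := by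
    rw [← Vale.Agent.Lib.P254.affBundled_coe]
    exact (Vale.Agent.Lib.P254.affBundled F c).continuous_of_finiteDimensional
  have hopen : IsOpen (affMap F c ⁻¹' interior (affMap F c '' K)) :=
    isOpen_interior.preimage hcont
  have hsub : affMap F c ⁻¹' interior (affMap F c '' K) ⊆ K := by
    intro x hx
    obtain ⟨x', hx', he⟩ := interior_subset hx
    rw [← Vale.Agent.Lib.P254.affMap_injective hF c he]
    exact hx'
  have hsurj : ∃ z', affMap F c z' = z := by
    refine ⟨F⁻¹ *ᵥ (z - c), ?_⟩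
    unfold Vale.Agent.Lib.P254.affMap
    rw [Matrix.mulVec_mulVec, Matrix.mul_nonsing_inv _ (isUnit_iff_ne_zero.2 hF),
      Matrix.one_mulVec]
    abel
  obtain ⟨z', hz'⟩ := hsurj
  refine ⟨z', interior_maximal hsub hopen ?_, hz'.symm⟩
  show affMap F c z' ∈ interior (affMap F c '' K)
  rw [hz']
  exact hz

end affine

section segfacts

lemma isCompact_seg (a b : ℝ) : IsCompact (seg a b) := by
  have hcl : IsClosed (seg a b) := by
    have h1 : IsClosed {x : Unit → ℝ | a ≤ x ()} :=
      isClosed_le continuous_const (continuous_apply ())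
    have h2 : IsClosed {x : Unit → ℝ | x () ≤ b} :=
      isClosed_le (continuous_apply ()) continuous_const
    exact h1.inter h2
  have hb : Bornology.IsBounded (seg a b) := by
    refine isBounded_iff_forall_norm_le.2 ⟨max |a| |b|, ?_⟩
    rintro x ⟨hx0, hx1⟩
    refine (pi_norm_le_iff_of_nonneg (le_max_of_le_left (abs_nonneg a))).2 fun t => ?_
    rw [Real.norm_eq_abs]
    exact abs_le_max_abs_abs hx0 hx1
  exact Metric.isCompact_of_isClosed_isBounded hcl hb

lemma convex_seg (a b : ℝ) : Convex ℝ (seg a b) := by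
  intro x hx y hy u v hu hv huv
  have e : (u • x + v • y) () = u * x () + v * y () := by simp
  constructor
  · show a ≤ (u • x + v • y) ()
    rw [e]
    calc a = u * a + v * a := by rw [← add_mul, huv, one_mul]
      _ ≤ u * x () + v * y () :=
          add_le_add (mul_le_mul_of_nonneg_left hx.1 hu) (mul_le_mul_of_nonneg_left hy.1 hv)
  · show (u • x + v • y) () ≤ b
    rw [e]
    calc u * x () + v * y () ≤ u * b + v * b :=
          add_le_add (mul_le_mul_of_nonneg_left hx.2 hu) (mul_le_mul_of_nonneg_left hy.2 hv)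
      _ = b := by rw [← add_mul, huv, one_mul]

/-- a segment is a simplex -/
lemma seg_simplex {a b : ℝ} (hab : a < b) :
    ∃ p : Fin (Fintype.card Unit + 1) → Unit → ℝ, AffineIndependent ℝ p ∧
      seg a b = convexHull ℝ (Set.range p) := by
  have hne : (fun _ : Unit => a) ≠ (fun _ : Unit => b) := fun h => hab.ne (congrFun h ())
  have hai := affineIndependent_of_ne ℝ hne
  have hcard : Fintype.card Unit + 1 = 2 := by simp
  refine ⟨![fun _ => a, fun _ => b] ∘ (finCongr hcard),
    hai.comp_embedding (finCongr hcard).toEmbedding, ?_⟩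
  rw [(finCongr hcard).surjective.range_comp]
  have hr : Set.range ![(fun _ : Unit => a), (fun _ : Unit => b)]
      = {(fun _ : Unit => a), (fun _ : Unit => b)} := by
    ext x
    simp
    tauto
  rw [hr]
  apply Set.Subset.antisymm
  · intro x hx
    have hba : 0 < b - a := by linarith
    have hseg := segment_subset_convexHull (𝕜 := ℝ)
      (s := {(fun _ : Unit => a), (fun _ : Unit => b)}) (x := fun _ => a) (y := fun _ => b)
      (by simp) (by simp)
    apply hseg
    refine ⟨(b - x ()) / (b - a), (x () - a) / (b - a), div_nonneg (by linarith [hx.2]) hba.le,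
      div_nonneg (by linarith [hx.1]) hba.le, ?_, ?_⟩
    · field_simp
      ring
    · funext u
      simp only [Pi.add_apply, Pi.smul_apply, smul_eq_mul]
      field_simp
      ring
  · refine convexHull_min ?_ (convex_seg a b)
    rintro x (rfl | rfl)
    · exact ⟨le_refl a, hab.le⟩
    · exact ⟨hab.le, le_refl b⟩

end segfacts

section family

open Vale.Agent.Lib.P254 (affMap)

/-- The simplex bound for the volume product on the family `Pyr`, with its equality case. -/
theorem pyr_main {ι : Type} [Fintype ι] [DecidableEq ι] {K : Set (ι → ℝ)} (h : Pyr K) :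
    IsCompact K ∧ Convex ℝ K ∧ 0 < vol K ∧
    (∀ z ∈ interior K, simplexVal (Fintype.card ι) ≤ santalo K z) ∧
    ((∃ z ∈ interior K, santalo K z = simplexVal (Fintype.card ι)) →
      ∃ p : Fin (Fintype.card ι + 1) → ι → ℝ, AffineIndependent ℝ p ∧
        K = convexHull ℝ (Set.range p)) := by
  induction h with
  | seg a b hab =>
    refine ⟨isCompact_seg a b, convex_seg a b, ?_, fun z hz => ?_, fun _ => seg_simplex hab⟩
    · have hv : vol (seg a b) = b - a := vol_unit_Icc hab.le
      rw [hv]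
      linarith
    · simpa using santalo_seg hz
  | prod A B hA hB ihA ihB =>
    obtain ⟨cA, vA, pA, qA, -⟩ := ihA
    obtain ⟨cB, vB, pB, qB, -⟩ := ihB
    have hlt := q2_prod qA qB
    refine ⟨Vale.Agent.Lib.P254.isCompact_prodSet cA cB,
      Vale.Agent.Lib.P254.convex_prodSet vA vB, ?_, fun z hz => ?_, ?_⟩
    · rw [vol_prodSet]
      exact mul_pos pA pB
    · rw [Fintype.card_sum]
      exact (hlt z hz).le
    · rintro ⟨z, hz, heq⟩
      rw [Fintype.card_sum] at heq
      exact absurd heq (hlt z hz).ne'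
  | cone A hA ih =>
    obtain ⟨cA, vA, pA, qA, eA⟩ := ih
    have hAm : MeasurableSet A := cA.measurableSet
    have hbd := cA.isBounded
    have hne : A.Nonempty := Vale.Agent.Lib.P254.nonempty_of_vol_pos pA
    have hcard : ∀ (α : Type) [Fintype α], Fintype.card (α ⊕ Unit) = Fintype.card α + 1 := by
      intro α _
      simp
    refine ⟨Vale.Agent.Lib.P254.isCompact_ccone cA, Vale.Agent.Lib.P254.convex_ccone vA, ?_,
      fun z hz => ?_, ?_⟩
    · rw [vol_ccone hAm hbd hne]
      positivity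
    · rw [hcard]
      exact (q2_ccone hAm hbd qA hz).1
    · rintro ⟨z, hz, heq⟩
      rw [hcard] at heq
      obtain ⟨p, hp, hK⟩ := eA ((q2_ccone hAm hbd qA hz).2 heq)
      obtain ⟨q, hq, hqK⟩ := Vale.Agent.Lib.P254.ccone_simplex p hp
      exact ⟨q, hq, by rw [hK, hqK]⟩
  | aff F c hF A hA ih =>
    obtain ⟨cA, vA, pA, qA, eA⟩ := ih
    have hAm : MeasurableSet A := cA.measurableSet
    have hvol : vol (affMap F c '' A) = |F.det| * vol A :=
      Vale.Agent.Lib.P254.aff_vol hF c hAm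
    refine ⟨Vale.Agent.Lib.P254.aff_compact F c cA, Vale.Agent.Lib.P254.aff_convex F c vA, ?_,
      fun z hz => ?_, ?_⟩
    · show 0 < vol (affMap F c '' A)
      rw [hvol]
      exact mul_pos (abs_pos.2 hF) pA
    · have hz' : z ∈ interior (affMap F c '' A) := hz
      obtain ⟨z', hz'', rfl⟩ := interior_aff hF c hz'
      show _ ≤ santalo (affMap F c '' A) (affMap F c z')
      rw [santalo_aff hF c hAm]
      exact qA z' hz''
    · rintro ⟨z, hz, heq⟩
      have hz' : z ∈ interior (affMap F c '' A) := hz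
      obtain ⟨z', hz'', rfl⟩ := interior_aff hF c hz'
      have heq' : santalo (affMap F c '' A) (affMap F c z') = simplexVal (Fintype.card _) := heq
      rw [santalo_aff hF c hAm] at heq'
      obtain ⟨p, hp, hK⟩ := eA ⟨z', hz'', heq'⟩
      obtain ⟨h1, h2⟩ := Vale.Agent.Lib.P254.aff_simplex hF c p hp
      refine ⟨fun i => affMap F c (p i), h1, ?_⟩
      show affMap F c '' A = _
      rw [hK, h2]

end family

end

end Vale.Agent.Lib.P248
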