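import Mathlib

/-!
# P248 (Mahler conjectures): definitions
-/

namespace Vale.Agent.Lib.P248

open MeasureTheory

noncomputable section

/-- Lebesgue volume of a subset of `ℝ^κ`, as a real number. -/
def vol {κ : Type*} [Fintype κ] (S : Set (κ → ℝ)) : ℝ := (volume S).toReal

/-- The polar body of `K` with respect to the point `z`: all `y` whose inner product with
`x - z` is at most `1` for every `x` in `K`. -/
def polarAt {κ : Type*} [Fintype κ] (K : Set (κ → ℝ)) (z : κ → ℝ) : Set (κ → ℝ) :=
  {y | ∀ x ∈ K, ∑ i, y i * (x i - z i) ≤ 1}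

/-- The volume of `K` times the volume of its polar body with respect to `z`.  The volume
product of a convex body `K` is the infimum of this quantity over the interior points `z`. -/
def santalo {κ : Type*} [Fintype κ] (K : Set (κ → ℝ)) (z : κ → ℝ) : ℝ :=
  vol K * vol (polarAt K z)

/-- The Cartesian product of `A ⊆ ℝ^ι` and `B ⊆ ℝ^κ`, as a subset of `ℝ^(ι ⊕ κ)`. -/
def prodSet {ι κ : Type*} (A : Set (ι → ℝ)) (B : Set (κ → ℝ)) : Set (ι ⊕ κ → ℝ) :=
  {z | (fun i => z (Sum.inl i)) ∈ A ∧ (fun j => z (Sum.inr j)) ∈ B}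

/-- The volume product of the `n`-simplex: the power `n + 1` of `n + 1` divided by the square of
`n!`. -/
def simplexVal (n : ℕ) : ℝ := ((n:ℝ) + 1) ^ (n + 1) / ((n.factorial : ℝ)) ^ 2

/-- The segment `[a, b]` as a subset of the one-dimensional space `ℝ^Unit`. -/
def seg (a b : ℝ) : Set (Unit → ℝ) := {x | a ≤ x () ∧ x () ≤ b}

end

end Vale.Agent.Lib.P248
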