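import Vale.Agent.Lib.P248.Cone
import Vale.Agent.Lib.P248.BoxDefs

/-!
# P248: bodies that fill a large part of a box

If `K ⊆ T` then the polar body of `T` is contained in that of `K`, so
`santalo K z ≥ (vol K / vol T) * santalo T z`.  For a box `T` the volume product functional is at
least `4^n / n!`, which exceeds the simplex value for `n ≥ 2`.
-/

namespace Vale.Agent.Lib.P248

open MeasureTheory Set

set_option linter.deprecated false
set_option linter.unusedSectionVars false
set_option linter.unusedVariables false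

noncomputable section

section sandwich

variable {κ : Type*} [Fintype κ]

lemma polarAt_anti {K T : Set (κ → ℝ)} (h : K ⊆ T) (z : κ → ℝ) :
    polarAt T z ⊆ polarAt K z := fun y hy x hx => hy x (h hx)

/-- comparison of the volume product functionals of nested sets -/
theorem santalo_sandwich [DecidableEq κ] {K T : Set (κ → ℝ)} (hKT : K ⊆ T) {z : κ → ℝ}
    (hz : z ∈ interior K) (hT : 0 < vol T) :
    vol K / vol T * santalo T z ≤ santalo K z := by
  unfold santalo
  have h1 : vol (polarAt T z) ≤ vol (polarAt K z) :=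
    ENNReal.toReal_mono (isCompact_polarAt hz).measure_lt_top.ne
      (measure_mono (polarAt_anti hKT z))
  have h0 : 0 ≤ vol K := ENNReal.toReal_nonneg
  calc vol K / vol T * (vol T * vol (polarAt T z)) = vol K * vol (polarAt T z) := by
        field_simp
    _ ≤ vol K * vol (polarAt K z) := mul_le_mul_of_nonneg_left h1 h0

end sandwich

section boxes

/-- the bound `4^n / n!` passes to Cartesian products -/
lemma box_prod_bound {ι κ : Type*} [Fintype ι] [Fintype κ] [DecidableEq ι] [DecidableEq κ]
    [Nonempty ι] [Nonempty κ] {A : Set (ι → ℝ)} {B : Set (κ → ℝ)}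
    (qA : ∀ z ∈ interior A,
      (4:ℝ) ^ Fintype.card ι / ((Fintype.card ι).factorial : ℝ) ≤ santalo A z)
    (qB : ∀ z ∈ interior B,
      (4:ℝ) ^ Fintype.card κ / ((Fintype.card κ).factorial : ℝ) ≤ santalo B z) :
    ∀ z ∈ interior (prodSet A B),
      (4:ℝ) ^ (Fintype.card ι + Fintype.card κ)
        / ((Fintype.card ι + Fintype.card κ).factorial : ℝ) ≤ santalo (prodSet A B) z := by
  intro z hz
  obtain ⟨h1, h2⟩ := interior_prodSet hz
  have hz' : z = Sum.elim (fun i => z (Sum.inl i)) (fun j => z (Sum.inr j)) := by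
    funext s
    rcases s with i | j <;> rfl
  rw [hz', santalo_prod h1 h2, fsc_eq]
  have hA' := qA _ h1
  have hB' := qB _ h2
  have hmul := mul_le_mul hA' hB' (by positivity) (le_trans (by positivity) hA')
  have hk : (((Fintype.card ι).factorial : ℕ) : ℝ) ≠ 0 := by positivity
  have hl : (((Fintype.card κ).factorial : ℕ) : ℝ) ≠ 0 := by positivity
  have hc : (0:ℝ) ≤ ((Fintype.card ι).factorial : ℝ) * ((Fintype.card κ).factorial : ℝ)
      / ((Fintype.card ι + Fintype.card κ).factorial : ℝ) := by positivity
  refine le_trans (le_of_eq ?_) (mul_le_mul_of_nonneg_left hmul hc)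
  rw [pow_add]
  field_simp

/-- the volume product functional of a box is at least `4^n / n!` at every interior point -/
theorem box_main {ι : Type} [Fintype ι] [DecidableEq ι] {T : Set (ι → ℝ)} (h : Box T) :
    IsCompact T ∧ Convex ℝ T ∧ 0 < vol T ∧
    ∀ z ∈ interior T,
      (4:ℝ) ^ Fintype.card ι / ((Fintype.card ι).factorial : ℝ) ≤ santalo T z := by
  induction h with
  | seg a b hab =>
    refine ⟨isCompact_seg a b, convex_seg a b, ?_, fun z hz => ?_⟩
    · have hv : vol (seg a b) = b - a := vol_unit_Icc hab.le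
      rw [hv]
      linarith
    · have h1 := santalo_seg hz
      have e : simplexVal 1 = 4 := by
        unfold simplexVal
        norm_num
      rw [e] at h1
      simpa using h1
  | prod A B hA hB ihA ihB =>
    obtain ⟨cA, vA, pA, qA⟩ := ihA
    obtain ⟨cB, vB, pB, qB⟩ := ihB
    refine ⟨Vale.Agent.Lib.P254.isCompact_prodSet cA cB,
      Vale.Agent.Lib.P254.convex_prodSet vA vB, ?_, fun z hz => ?_⟩
    · rw [vol_prodSet]
      exact mul_pos pA pB
    · rw [Fintype.card_sum]
      exact box_prod_bound qA qB z hz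

lemma bq_lt_four_pow {n : ℕ} (hn : 2 ≤ n) : bq n < 4 ^ n := by
  have hb1 : bq 1 = 4 := by
    unfold bq
    norm_num
  have hr1 : rq 1 = 27 / 8 := by
    unfold rq
    norm_num
  induction n, hn using Nat.le_induction with
  | base =>
    have h := bq_succ 1
    rw [hb1, hr1] at h
    have e : (1 + 1 : ℕ) = 2 := rfl
    rw [e] at h
    rw [h]
    norm_num
  | succ n hn ih =>
    rw [bq_succ n, pow_succ]
    have hrn : rq n ≤ 27 / 8 := by
      obtain ⟨j, rfl⟩ : ∃ j, n = 1 + j := ⟨n - 1, by omega⟩
      have := rq_anti 1 j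
      rwa [hr1] at this
    have hbp := bq_pos n
    have hrp := rq_pos n
    nlinarith

/-- the simplex value is smaller than the value `4^n / n!` of the cube for `n ≥ 2` -/
lemma simplexVal_lt_box {n : ℕ} (hn : 2 ≤ n) :
    simplexVal n < (4:ℝ) ^ n / (n.factorial : ℝ) := by
  rw [simplexVal_eq]
  exact div_lt_div_of_pos_right (bq_lt_four_pow hn) (by positivity)

/-- the simplex bound for sets that fill a large part of a box -/
theorem q2_near_box {ι : Type} [Fintype ι] [DecidableEq ι] {T K : Set (ι → ℝ)} (hT : Box T)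
    (hKT : K ⊆ T)
    (hvol : simplexVal (Fintype.card ι) * vol T
      ≤ (4:ℝ) ^ Fintype.card ι / ((Fintype.card ι).factorial : ℝ) * vol K)
    {z : ι → ℝ} (hz : z ∈ interior K) :
    simplexVal (Fintype.card ι) ≤ santalo K z := by
  obtain ⟨cT, vT, pT, qT⟩ := box_main hT
  have h1 := santalo_sandwich hKT hz pT
  have h2 := qT z (interior_mono hKT hz)
  have h0 : 0 ≤ vol K / vol T := div_nonneg ENNReal.toReal_nonneg pT.le
  calc simplexVal (Fintype.card ι)
      ≤ (4:ℝ) ^ Fintype.card ι / ((Fintype.card ι).factorial : ℝ) * vol K / vol T := by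
        rw [le_div_iff₀ pT]
        exact hvol
    _ = vol K / vol T * ((4:ℝ) ^ Fintype.card ι / ((Fintype.card ι).factorial : ℝ)) := by ring
    _ ≤ vol K / vol T * santalo T z := mul_le_mul_of_nonneg_left h2 h0
    _ ≤ santalo K z := h1

end boxes

end

end Vale.Agent.Lib.P248
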