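import Vale.Agent.Lib.P248.Defs
import Vale.Agent.Lib.P254.Product

/-!
# P248: the volume product of Cartesian products
-/

namespace Vale.Agent.Lib.P248

open MeasureTheory Set
open Vale.Agent.Lib.P254 (freeSum Star0 fsc)

noncomputable section

section polar

variable {κ : Type*} [Fintype κ]

lemma isClosed_polarAt (K : Set (κ → ℝ)) (z : κ → ℝ) : IsClosed (polarAt K z) := by
  have e : polarAt K z = ⋂ x ∈ K, {y : κ → ℝ | ∑ i, y i * (x i - z i) ≤ 1} := by
    ext y
    simp [polarAt]
  rw [e]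
  refine isClosed_biInter fun x _ => ?_
  exact isClosed_le (continuous_finsetSum _ fun i _ =>
    (continuous_apply i).mul continuous_const) continuous_const

lemma zero_mem_polarAt (K : Set (κ → ℝ)) (z : κ → ℝ) : (0 : κ → ℝ) ∈ polarAt K z := by
  intro x _
  simp

lemma star0_polarAt (K : Set (κ → ℝ)) (z : κ → ℝ) : Star0 (polarAt K z) := by
  intro y hy r h0 h1 x hx
  have h := hy x hx
  have e : ∑ i, (r • y) i * (x i - z i) = r * ∑ i, y i * (x i - z i) := by
    rw [Finset.mul_sum]
    refine Finset.sum_congr rfl fun i _ => ?_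
    simp [mul_assoc]
  rw [e]
  rcases le_total 0 (∑ i, y i * (x i - z i)) with hs | hs
  · nlinarith
  · nlinarith

lemma isBounded_polarAt [DecidableEq κ] {K : Set (κ → ℝ)} {z : κ → ℝ} (hz : z ∈ interior K) :
    Bornology.IsBounded (polarAt K z) := by
  obtain ⟨ε, hε, hball⟩ := Metric.mem_nhds_iff.1 (mem_interior_iff_mem_nhds.1 hz)
  refine isBounded_iff_forall_norm_le.2 ⟨2 / ε, fun y hy => ?_⟩
  refine (pi_norm_le_iff_of_nonneg (by positivity)).2 fun i => ?_
  have hval : ∀ σ : ℝ, |σ| ≤ 1 → (ε / 2) * (y i * σ) ≤ 1 := by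
    intro σ hσ
    set w : κ → ℝ := Pi.single i σ with hw
    have hmem : z + (ε / 2) • w ∈ K := by
      apply hball
      rw [Metric.mem_ball, dist_eq_norm]
      have e : z + (ε / 2) • w - z = (ε / 2) • w := by abel
      rw [e, norm_smul, Real.norm_eq_abs, abs_of_pos (by positivity : (0:ℝ) < ε / 2), hw,
        Pi.norm_single, Real.norm_eq_abs]
      nlinarith
    have h := hy _ hmem
    have e : ∑ j, y j * ((z + (ε / 2) • w) j - z j) = (ε / 2) * (y i * σ) := by
      rw [Finset.sum_eq_single i]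
      · simp only [Pi.add_apply, Pi.smul_apply, smul_eq_mul, hw, Pi.single_eq_same]
        ring
      · intro j _ hji
        simp only [Pi.add_apply, Pi.smul_apply, smul_eq_mul, hw, Pi.single_eq_of_ne hji]
        ring
      · intro h
        exact absurd (Finset.mem_univ i) h
    rw [e] at h
    exact h
  have h1 := hval 1 (by simp)
  have h2 := hval (-1) (by simp)
  rw [Real.norm_eq_abs, abs_le]
  constructor
  · have h3 : -y i ≤ 2 / ε := by
      rw [le_div_iff₀ hε]
      nlinarith
    linarith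
  · rw [le_div_iff₀ hε]
    nlinarith

lemma isCompact_polarAt [DecidableEq κ] {K : Set (κ → ℝ)} {z : κ → ℝ} (hz : z ∈ interior K) :
    IsCompact (polarAt K z) :=
  Metric.isCompact_of_isClosed_isBounded (isClosed_polarAt K z) (isBounded_polarAt hz)

/-- a linear functional that is nonpositive on `K - z` vanishes if `z` is an interior point -/
lemma eq_zero_of_nonpos {K : Set (κ → ℝ)} {z : κ → ℝ} (hz : z ∈ interior K) {g : κ → ℝ}
    (hg : ∀ x ∈ K, ∑ i, g i * (x i - z i) ≤ 0) : g = 0 := by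
  obtain ⟨ε, hε, hball⟩ := Metric.mem_nhds_iff.1 (mem_interior_iff_mem_nhds.1 hz)
  set δ : ℝ := ε / (2 * (‖g‖ + 1)) with hδ
  have hn : 0 ≤ ‖g‖ := norm_nonneg g
  have hδ0 : 0 < δ := by positivity
  have hmem : z + δ • g ∈ K := by
    apply hball
    rw [Metric.mem_ball, dist_eq_norm]
    have e : z + δ • g - z = δ • g := by abel
    rw [e, norm_smul, Real.norm_eq_abs, abs_of_pos hδ0, hδ, div_mul_eq_mul_div,
      div_lt_iff₀ (by positivity)]
    nlinarith
  have h := hg _ hmem
  have e : ∑ i, g i * ((z + δ • g) i - z i) = δ * ∑ i, g i ^ 2 := by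
    rw [Finset.mul_sum]
    refine Finset.sum_congr rfl fun i _ => ?_
    simp
    ring
  rw [e] at h
  have hsum : ∑ i, g i ^ 2 ≤ 0 := by
    by_contra hcon
    have : 0 < ∑ i, g i ^ 2 := lt_of_not_ge hcon
    nlinarith
  have hzero : ∀ i ∈ Finset.univ, g i ^ 2 = 0 :=
    (Finset.sum_eq_zero_iff_of_nonneg fun i _ => sq_nonneg (g i)).1
      (le_antisymm hsum (Finset.sum_nonneg fun i _ => sq_nonneg (g i)))
  funext i
  have := hzero i (Finset.mem_univ i)
  simpa using this

end polar

section product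

variable {ι κ : Type*} [Fintype ι] [Fintype κ]

lemma vol_prodSet (A : Set (ι → ℝ)) (B : Set (κ → ℝ)) : vol (prodSet A B) = vol A * vol B :=
  Vale.Agent.Lib.P254.prod_vol A B

lemma pair_sum (y x z : ι ⊕ κ → ℝ) :
    ∑ s, y s * (x s - z s) = ∑ i, y (Sum.inl i) * (x (Sum.inl i) - z (Sum.inl i))
      + ∑ j, y (Sum.inr j) * (x (Sum.inr j) - z (Sum.inr j)) :=
  Fintype.sum_sum_type _

/-- the polar of a product is the free sum of the polars -/
theorem polarAt_prod {A : Set (ι → ℝ)} {B : Set (κ → ℝ)} {z₁ : ι → ℝ} {z₂ : κ → ℝ}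
    (hz₁ : z₁ ∈ interior A) (hz₂ : z₂ ∈ interior B) :
    polarAt (prodSet A B) (Sum.elim z₁ z₂) = freeSum (polarAt A z₁) (polarAt B z₂) := by
  have hz₁A : z₁ ∈ A := interior_subset hz₁
  have hz₂B : z₂ ∈ B := interior_subset hz₂
  ext y
  constructor
  · intro hy
    -- the pairings with the two components
    have hpair : ∀ x₁ ∈ A, ∀ x₂ ∈ B,
        ∑ i, y (Sum.inl i) * (x₁ i - z₁ i) + ∑ j, y (Sum.inr j) * (x₂ j - z₂ j) ≤ 1 := by
      intro x₁ hx₁ x₂ hx₂
      have h := hy (Sum.elim x₁ x₂) ⟨hx₁, hx₂⟩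
      rw [pair_sum] at h
      simpa using h
    set f₂ : (κ → ℝ) → ℝ := fun x₂ => ∑ j, y (Sum.inr j) * (x₂ j - z₂ j) with hf₂
    have hf₂z : f₂ z₂ = 0 := by simp [hf₂]
    have hbdd : BddAbove (f₂ '' B) := by
      refine ⟨1, ?_⟩
      rintro _ ⟨x₂, hx₂, rfl⟩
      have h := hpair z₁ hz₁A x₂ hx₂
      simp only [sub_self, mul_zero, Finset.sum_const_zero, zero_add] at h
      exact h
    have hne : (f₂ '' B).Nonempty := ⟨f₂ z₂, z₂, hz₂B, rfl⟩
    set t : ℝ := sSup (f₂ '' B) with ht
    have ht0 : 0 ≤ t := by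
      rw [← hf₂z]
      exact le_csSup hbdd ⟨z₂, hz₂B, rfl⟩
    have hf₂le : ∀ x₂ ∈ B, f₂ x₂ ≤ t := fun x₂ hx₂ => le_csSup hbdd ⟨x₂, hx₂, rfl⟩
    have hf₁le : ∀ x₁ ∈ A, ∑ i, y (Sum.inl i) * (x₁ i - z₁ i) ≤ 1 - t := by
      intro x₁ hx₁
      have : t ≤ 1 - ∑ i, y (Sum.inl i) * (x₁ i - z₁ i) := by
        apply csSup_le hne
        rintro _ ⟨x₂, hx₂, rfl⟩
        have h := hpair x₁ hx₁ x₂ hx₂
        linarith
      linarith
    have ht1 : t ≤ 1 := by
      have h := hf₁le z₁ hz₁A
      simp only [sub_self, mul_zero, Finset.sum_const_zero] at h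
      linarith
    have hysplit : y = Sum.elim (fun i => y (Sum.inl i)) (fun j => y (Sum.inr j)) := by
      funext s
      rcases s with i | j <;> rfl
    by_cases h0 : t = 0
    · -- the second component vanishes
      have hy₂ : (fun j => y (Sum.inr j)) = 0 := by
        apply eq_zero_of_nonpos hz₂
        intro x₂ hx₂
        have := hf₂le x₂ hx₂
        rw [h0] at this
        exact this
      refine ⟨fun i => y (Sum.inl i), ?_, 0, zero_mem_polarAt B z₂, 0, le_rfl, zero_le_one, ?_⟩
      · intro x₁ hx₁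
        have := hf₁le x₁ hx₁
        rw [h0] at this
        linarith
      · rw [hysplit]
        funext s
        rcases s with i | j
        · simp
        · have := congrFun hy₂ j
          simpa using this
    · by_cases h1 : t = 1
      · have hy₁ : (fun i => y (Sum.inl i)) = 0 := by
          apply eq_zero_of_nonpos hz₁
          intro x₁ hx₁
          have := hf₁le x₁ hx₁
          rw [h1] at this
          linarith
        refine ⟨0, zero_mem_polarAt A z₁, fun j => y (Sum.inr j), ?_, 1, zero_le_one, le_rfl, ?_⟩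
        · intro x₂ hx₂
          have := hf₂le x₂ hx₂
          rw [h1] at this
          exact this
        · rw [hysplit]
          funext s
          rcases s with i | j
          · have := congrFun hy₁ i
            simpa using this
          · simp
      · have htpos : 0 < t := lt_of_le_of_ne ht0 (Ne.symm h0)
        have ht1' : 0 < 1 - t := sub_pos.2 (lt_of_le_of_ne ht1 h1)
        refine ⟨(1 - t)⁻¹ • (fun i => y (Sum.inl i)), ?_, t⁻¹ • (fun j => y (Sum.inr j)), ?_,
          t, ht0, ht1, ?_⟩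
        · intro x₁ hx₁
          have h := hf₁le x₁ hx₁
          have e : ∑ i, ((1 - t)⁻¹ • fun i => y (Sum.inl i)) i * (x₁ i - z₁ i)
              = (1 - t)⁻¹ * ∑ i, y (Sum.inl i) * (x₁ i - z₁ i) := by
            rw [Finset.mul_sum]
            refine Finset.sum_congr rfl fun i _ => ?_
            simp [mul_assoc]
          rw [e, inv_mul_le_iff₀ ht1', mul_one]
          exact h
        · intro x₂ hx₂
          have h := hf₂le x₂ hx₂
          have e : ∑ j, (t⁻¹ • fun j => y (Sum.inr j)) j * (x₂ j - z₂ j)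
              = t⁻¹ * f₂ x₂ := by
            rw [hf₂, Finset.mul_sum]
            refine Finset.sum_congr rfl fun j _ => ?_
            simp [mul_assoc]
          rw [e, inv_mul_le_iff₀ htpos, mul_one]
          exact h
        · rw [smul_smul, smul_smul, mul_inv_cancel₀ ht1'.ne', mul_inv_cancel₀ htpos.ne',
            one_smul, one_smul]
          exact hysplit
  · rintro ⟨a, ha, b, hb, t, ht0, ht1, rfl⟩
    intro x hx
    rw [pair_sum]
    simp only [Sum.elim_inl, Sum.elim_inr, Pi.smul_apply, smul_eq_mul]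
    have h1 := ha _ hx.1
    have h2 := hb _ hx.2
    have e1 : ∑ i, (1 - t) * a i * (x (Sum.inl i) - z₁ i)
        = (1 - t) * ∑ i, a i * (x (Sum.inl i) - z₁ i) := by
      rw [Finset.mul_sum]
      refine Finset.sum_congr rfl fun i _ => ?_
      ring
    have e2 : ∑ j, t * b j * (x (Sum.inr j) - z₂ j)
        = t * ∑ j, b j * (x (Sum.inr j) - z₂ j) := by
      rw [Finset.mul_sum]
      refine Finset.sum_congr rfl fun j _ => ?_
      ring
    rw [e1, e2]
    nlinarith [mul_le_mul_of_nonneg_left h1 (sub_nonneg.2 ht1), mul_le_mul_of_nonneg_left h2 ht0]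

/-- the product formula for the volume product at a pair of interior points -/
theorem santalo_prod [DecidableEq ι] [DecidableEq κ] [Nonempty ι] {A : Set (ι → ℝ)}
    {B : Set (κ → ℝ)} {z₁ : ι → ℝ} {z₂ : κ → ℝ} (hz₁ : z₁ ∈ interior A)
    (hz₂ : z₂ ∈ interior B) :
    santalo (prodSet A B) (Sum.elim z₁ z₂)
      = fsc (Fintype.card ι) (Fintype.card κ) 0 0 * (santalo A z₁ * santalo B z₂) := by
  unfold santalo
  rw [polarAt_prod hz₁ hz₂, vol_prodSet]
  have h := Vale.Agent.Lib.P254.fs_vol (isCompact_polarAt hz₁) (isCompact_polarAt hz₂)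
    (star0_polarAt A z₁) (star0_polarAt B z₂)
  have h' : vol (freeSum (polarAt A z₁) (polarAt B z₂))
      = fsc (Fintype.card ι) (Fintype.card κ) 0 0 * (vol (polarAt A z₁) * vol (polarAt B z₂)) :=
    h
  rw [h']
  ring

/-- interior points of a product have interior components -/
lemma interior_prodSet {A : Set (ι → ℝ)} {B : Set (κ → ℝ)} {z : ι ⊕ κ → ℝ}
    (hz : z ∈ interior (prodSet A B)) :
    (fun i => z (Sum.inl i)) ∈ interior A ∧ (fun j => z (Sum.inr j)) ∈ interior B := by
  obtain ⟨ε, hε, hball⟩ := Metric.mem_nhds_iff.1 (mem_interior_iff_mem_nhds.1 hz)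
  constructor
  · refine mem_interior_iff_mem_nhds.2 (Metric.mem_nhds_iff.2 ⟨ε, hε, fun x₁ hx₁ => ?_⟩)
    have hmem : (Sum.elim x₁ (fun j => z (Sum.inr j)) : ι ⊕ κ → ℝ) ∈ Metric.ball z ε := by
      rw [Metric.mem_ball, dist_pi_lt_iff hε]
      rw [Metric.mem_ball, dist_pi_lt_iff hε] at hx₁
      rintro (i | j)
      · exact hx₁ i
      · simpa using hε
    exact (hball hmem).1
  · refine mem_interior_iff_mem_nhds.2 (Metric.mem_nhds_iff.2 ⟨ε, hε, fun x₂ hx₂ => ?_⟩)
    have hmem : (Sum.elim (fun i => z (Sum.inl i)) x₂ : ι ⊕ κ → ℝ) ∈ Metric.ball z ε := by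
      rw [Metric.mem_ball, dist_pi_lt_iff hε]
      rw [Metric.mem_ball, dist_pi_lt_iff hε] at hx₂
      rintro (i | j)
      · simpa using hε
      · exact hx₂ j
    exact (hball hmem).2

lemma prod_interior {A : Set (ι → ℝ)} {B : Set (κ → ℝ)} {z₁ : ι → ℝ} {z₂ : κ → ℝ}
    (hz₁ : z₁ ∈ interior A) (hz₂ : z₂ ∈ interior B) :
    (Sum.elim z₁ z₂ : ι ⊕ κ → ℝ) ∈ interior (prodSet A B) := by
  obtain ⟨ε₁, hε₁, hb₁⟩ := Metric.mem_nhds_iff.1 (mem_interior_iff_mem_nhds.1 hz₁)
  obtain ⟨ε₂, hε₂, hb₂⟩ := Metric.mem_nhds_iff.1 (mem_interior_iff_mem_nhds.1 hz₂)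
  refine mem_interior_iff_mem_nhds.2 (Metric.mem_nhds_iff.2
    ⟨min ε₁ ε₂, lt_min hε₁ hε₂, fun x hx => ?_⟩)
  rw [Metric.mem_ball, dist_pi_lt_iff (lt_min hε₁ hε₂)] at hx
  constructor
  · apply hb₁
    rw [Metric.mem_ball, dist_pi_lt_iff hε₁]
    intro i
    exact lt_of_lt_of_le (hx (Sum.inl i)) (min_le_left _ _)
  · apply hb₂
    rw [Metric.mem_ball, dist_pi_lt_iff hε₂]
    intro j
    exact lt_of_lt_of_le (hx (Sum.inr j)) (min_le_right _ _)

end product

section numeric

/-- the power `n + 1` of `n + 1`, divided by `n!` -/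
def bq (n : ℕ) : ℝ := ((n:ℝ) + 1) ^ (n + 1) / (n.factorial : ℝ)

/-- the quotient of consecutive values of `bq` -/
def rq (n : ℕ) : ℝ := (((n:ℝ) + 2) / ((n:ℝ) + 1)) ^ (n + 2)

lemma bq_pos (n : ℕ) : 0 < bq n := by unfold bq; positivity

lemma rq_pos (n : ℕ) : 0 < rq n := by unfold rq; positivity

lemma bq_zero : bq 0 = 1 := by simp [bq]

lemma bq_succ (n : ℕ) : bq (n + 1) = rq n * bq n := by
  have h1 : ((n:ℝ) + 1) ≠ 0 := by positivity
  have hf : ((n.factorial : ℕ) : ℝ) ≠ 0 := by positivity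
  unfold bq rq
  rw [Nat.factorial_succ, div_pow]
  push_cast
  have e : ((n:ℝ) + 1 + 1) = (n:ℝ) + 2 := by ring
  rw [e, show ((n:ℝ) + 1) ^ (n + 2) = ((n:ℝ) + 1) ^ (n + 1) * ((n:ℝ) + 1) from pow_succ _ _]
  field_simp

lemma rq_lt (n : ℕ) : rq (n + 1) < rq n := by
  unfold rq
  set x : ℝ := (n:ℝ) + 1 with hx
  have hx0 : 0 < x := by positivity
  have e1 : ((n + 1 : ℕ) : ℝ) + 2 = x + 2 := by push_cast; ring
  have e2 : ((n + 1 : ℕ) : ℝ) + 1 = x + 1 := by push_cast; ring
  have e3 : (n:ℝ) + 2 = x + 1 := by rw [hx]; ring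
  rw [e1, e2, e3]
  have hq : (x + 2) / (x + 1) < ((x + 1) ^ 2 / (x * (x + 2))) ^ (n + 2) := by
    have hpos : 0 < 1 / (x * (x + 2)) := by positivity
    have hb := one_add_mul_le_pow (show (-2:ℝ) ≤ 1 / (x * (x + 2)) by linarith) (n + 2)
    have e : 1 + 1 / (x * (x + 2)) = (x + 1) ^ 2 / (x * (x + 2)) := by
      field_simp
      ring
    rw [e] at hb
    have hc : ((n + 2 : ℕ) : ℝ) = x + 1 := by push_cast; rw [hx]; ring
    rw [hc] at hb
    have h2 : (x + 2) / (x + 1) < 1 + (x + 1) * (1 / (x * (x + 2))) := by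
      rw [div_lt_iff₀ (by positivity)]
      have e4 : (1 + (x + 1) * (1 / (x * (x + 2)))) * (x + 1)
          = (x + 2) + 1 / (x * (x + 2)) := by
        field_simp
        ring
      rw [e4]
      linarith
    linarith
  have hpow : 0 < ((x + 2) / (x + 1)) ^ (n + 2) := by positivity
  calc ((x + 2) / (x + 1)) ^ (n + 1 + 2)
      = ((x + 2) / (x + 1)) ^ (n + 2) * ((x + 2) / (x + 1)) := pow_succ _ _
    _ < ((x + 2) / (x + 1)) ^ (n + 2) * ((x + 1) ^ 2 / (x * (x + 2))) ^ (n + 2) :=
        mul_lt_mul_of_pos_left hq hpow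
    _ = ((x + 1) / x) ^ (n + 2) := by
        rw [← mul_pow]
        congr 1
        field_simp

lemma rq_anti (n j : ℕ) : rq (n + j) ≤ rq n := by
  induction j with
  | zero => simp
  | succ j ih => exact ((rq_lt (n + j)).le).trans ih

lemma bq_mul_le (k l : ℕ) : bq (k + l) ≤ bq k * bq l := by
  induction l with
  | zero => simp [bq_zero]
  | succ l ih =>
    rw [← add_assoc, bq_succ, bq_succ l]
    have h1 : rq (k + l) ≤ rq l := by
      rw [add_comm]
      exact rq_anti l k
    calc rq (k + l) * bq (k + l) ≤ rq (k + l) * (bq k * bq l) :=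
          mul_le_mul_of_nonneg_left ih (rq_pos _).le
      _ ≤ rq l * (bq k * bq l) :=
          mul_le_mul_of_nonneg_right h1 (mul_pos (bq_pos k) (bq_pos l)).le
      _ = bq k * (rq l * bq l) := by ring

lemma bq_mul_lt {k l : ℕ} (hk : 1 ≤ k) (hl : 1 ≤ l) : bq (k + l) < bq k * bq l := by
  obtain ⟨l', rfl⟩ : ∃ l', l = l' + 1 := Nat.exists_eq_succ_of_ne_zero (by omega)
  obtain ⟨k', rfl⟩ : ∃ k', k = k' + 1 := Nat.exists_eq_succ_of_ne_zero (by omega)
  rw [← add_assoc, bq_succ, bq_succ l']
  have h1 : rq (k' + 1 + l') < rq l' := by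
    have e : k' + 1 + l' = (l' + 1) + k' := by omega
    rw [e]
    exact lt_of_le_of_lt (rq_anti (l' + 1) k') (rq_lt l')
  have hpos : 0 < bq (k' + 1) * bq l' := mul_pos (bq_pos _) (bq_pos _)
  calc rq (k' + 1 + l') * bq (k' + 1 + l') ≤ rq (k' + 1 + l') * (bq (k' + 1) * bq l') :=
        mul_le_mul_of_nonneg_left (bq_mul_le _ _) (rq_pos _).le
    _ < rq l' * (bq (k' + 1) * bq l') := mul_lt_mul_of_pos_right h1 hpos
    _ = bq (k' + 1) * (rq l' * bq l') := by ring

lemma simplexVal_eq (n : ℕ) : simplexVal n = bq n / (n.factorial : ℝ) := by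
  unfold simplexVal bq
  rw [div_div, sq]

lemma simplexVal_pos (n : ℕ) : 0 < simplexVal n := by unfold simplexVal; positivity

lemma fsc_eq (k l : ℕ) : fsc k l 0 0
    = (k.factorial : ℝ) * (l.factorial : ℝ) / ((k + l).factorial : ℝ) := by
  simp [fsc]

/-- the simplex values are strictly supermultiplicative up to the product constant -/
theorem simplexVal_lt {k l : ℕ} (hk : 1 ≤ k) (hl : 1 ≤ l) :
    simplexVal (k + l)
      < (k.factorial : ℝ) * (l.factorial : ℝ) / ((k + l).factorial : ℝ)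
        * (simplexVal k * simplexVal l) := by
  rw [simplexVal_eq, simplexVal_eq, simplexVal_eq]
  have h := bq_mul_lt hk hl
  have hk0 : (0:ℝ) < (k.factorial : ℝ) := by positivity
  have hl0 : (0:ℝ) < (l.factorial : ℝ) := by positivity
  have hkl0 : (0:ℝ) < ((k + l).factorial : ℝ) := by positivity
  have e : (k.factorial : ℝ) * (l.factorial : ℝ) / ((k + l).factorial : ℝ)
      * (bq k / (k.factorial : ℝ) * (bq l / (l.factorial : ℝ)))
      = bq k * bq l / ((k + l).factorial : ℝ) := by
    field_simp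
  rw [e]
  exact div_lt_div_of_pos_right h hkl0

end numeric

section closure

variable {ι κ : Type*} [Fintype ι] [Fintype κ]

/-- the simplex bound for the volume product is preserved, strictly, by Cartesian products -/
theorem q2_prod [DecidableEq ι] [DecidableEq κ] [Nonempty ι] [Nonempty κ] {A : Set (ι → ℝ)}
    {B : Set (κ → ℝ)}
    (hA : ∀ z ∈ interior A, simplexVal (Fintype.card ι) ≤ santalo A z)
    (hB : ∀ z ∈ interior B, simplexVal (Fintype.card κ) ≤ santalo B z) :
    ∀ z ∈ interior (prodSet A B),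
      simplexVal (Fintype.card ι + Fintype.card κ) < santalo (prodSet A B) z := by
  intro z hz
  obtain ⟨h1, h2⟩ := interior_prodSet hz
  have hz' : z = Sum.elim (fun i => z (Sum.inl i)) (fun j => z (Sum.inr j)) := by
    funext s
    rcases s with i | j <;> rfl
  rw [hz', santalo_prod h1 h2, fsc_eq]
  have hk : 1 ≤ Fintype.card ι := Fintype.card_pos
  have hl : 1 ≤ Fintype.card κ := Fintype.card_pos
  have hc : (0:ℝ) < ((Fintype.card ι).factorial : ℝ) * ((Fintype.card κ).factorial : ℝ)
      / ((Fintype.card ι + Fintype.card κ).factorial : ℝ) := by positivity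
  calc simplexVal (Fintype.card ι + Fintype.card κ)
      < ((Fintype.card ι).factorial : ℝ) * ((Fintype.card κ).factorial : ℝ)
        / ((Fintype.card ι + Fintype.card κ).factorial : ℝ)
        * (simplexVal (Fintype.card ι) * simplexVal (Fintype.card κ)) := simplexVal_lt hk hl
    _ ≤ _ := by
        apply mul_le_mul_of_nonneg_left _ hc.le
        exact mul_le_mul (hA _ h1) (hB _ h2) (simplexVal_pos _).le
          ((simplexVal_pos _).le.trans (hA _ h1))

end closure

section segment

lemma vol_unit_Icc {a b : ℝ} (hab : a ≤ b) : vol {x : Unit → ℝ | a ≤ x () ∧ x () ≤ b} = b - a := by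
  have hmp := volume_preserving_funUnique Unit ℝ
  have e : {x : Unit → ℝ | a ≤ x () ∧ x () ≤ b}
      = (MeasurableEquiv.funUnique Unit ℝ) ⁻¹' (Icc a b) := by
    ext x
    simp [MeasurableEquiv.funUnique]
  unfold vol
  rw [e, hmp.measure_preimage measurableSet_Icc.nullMeasurableSet, Real.volume_Icc,
    ENNReal.toReal_ofReal (by linarith)]

lemma interior_seg {a b : ℝ} {z : Unit → ℝ} (hz : z ∈ interior (seg a b)) :
    a < z () ∧ z () < b := by
  obtain ⟨ε, hε, hball⟩ := Metric.mem_nhds_iff.1 (mem_interior_iff_mem_nhds.1 hz)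
  have h1 : (fun _ : Unit => z () - ε / 2) ∈ seg a b := by
    apply hball
    rw [Metric.mem_ball, dist_pi_lt_iff hε]
    intro t
    rw [Real.dist_eq]
    have : z () - ε / 2 - z t = -(ε / 2) := by
      have : z t = z () := rfl
      rw [this]
      ring
    rw [this, abs_neg, abs_of_pos (by positivity)]
    linarith
  have h2 : (fun _ : Unit => z () + ε / 2) ∈ seg a b := by
    apply hball
    rw [Metric.mem_ball, dist_pi_lt_iff hε]
    intro t
    rw [Real.dist_eq]
    have : z () + ε / 2 - z t = ε / 2 := by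
      have : z t = z () := rfl
      rw [this]
      ring
    rw [this, abs_of_pos (by positivity)]
    linarith
  have h1' : a ≤ z () - ε / 2 := h1.1
  have h2' : z () + ε / 2 ≤ b := h2.2
  constructor <;> linarith

/-- the one-dimensional case -/
theorem santalo_seg {a b : ℝ} {z : Unit → ℝ} (hz : z ∈ interior (seg a b)) :
    simplexVal 1 ≤ santalo (seg a b) z := by
  obtain ⟨hza, hzb⟩ := interior_seg hz
  have hp : 0 < b - z () := by linarith
  have hq : 0 < z () - a := by linarith
  have hpol : polarAt (seg a b) z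
      = {y : Unit → ℝ | -(1 / (z () - a)) ≤ y () ∧ y () ≤ 1 / (b - z ())} := by
    ext y
    constructor
    · intro hy
      have h1 := hy (fun _ => b) ⟨by linarith, le_rfl⟩
      have h2 := hy (fun _ => a) ⟨le_rfl, by linarith⟩
      simp only [Finset.univ_unique, PUnit.default_eq_unit, Finset.sum_singleton] at h1 h2
      constructor
      · have h3 : -y () ≤ 1 / (z () - a) := by
          rw [le_div_iff₀ hq]
          nlinarith
        linarith
      · rw [le_div_iff₀ hp]
        exact h1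
    · rintro ⟨h1, h2⟩ x ⟨hx1, hx2⟩
      simp only [Finset.univ_unique, PUnit.default_eq_unit, Finset.sum_singleton]
      rw [neg_le, le_div_iff₀ hq] at h1
      rw [le_div_iff₀ hp] at h2
      rcases le_total 0 (y ()) with hy0 | hy0
      · nlinarith
      · nlinarith
  have hle : -(1 / (z () - a)) ≤ 1 / (b - z ()) := by
    have h1 : 0 < 1 / (z () - a) := by positivity
    have h2 : 0 < 1 / (b - z ()) := by positivity
    linarith
  have hvs : vol (seg a b) = b - a := vol_unit_Icc (by linarith)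
  unfold santalo
  rw [hpol, vol_unit_Icc hle, hvs]
  have e : simplexVal 1 = 4 := by
    unfold simplexVal
    norm_num
  rw [e]
  have h3 : (b - a) * (1 / (b - z ()) - -(1 / (z () - a)))
      = (b - a) ^ 2 / ((b - z ()) * (z () - a)) := by
    field_simp
    ring
  rw [h3, le_div_iff₀ (mul_pos hp hq)]
  nlinarith [sq_nonneg ((b - z ()) - (z () - a))]

end segment

end

end Vale.Agent.Lib.P248
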